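import Vale.Agent.P359.Gap.Lift
import Vale.Agent.P359.Gap.OverlapExact
import Vale.Agent.P359.Gap.PairBlock

/-!
# P359, gap M6: the cross terms on highest weight vectors

The contraction of a highest weight vector of degree `m` with channel `r` is a highest weight
vector of two factors, hence a multiple of the bottom column of `Jc (m - r)`. So the cross term of
a square is a quadratic form in the overlaps with the vectors `gvec`.
-/

open Finset

namespace Vale.Agent.P359.Gap.Criterion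

open PairBlock (ext3 ext3_eq ext3_hw)

variable {Q m : ℕ}

/-- Overlap of a three-factor vector with a vector on natural indices. -/
noncomputable def ov (g : ℕ → ℕ → ℕ → ℝ) (h : ℕ → Fin (Q + 1) → Fin (Q + 1) → ℝ) : ℝ :=
  ∑ M ∈ range (impChg Q + 1), ∑ x : Fin (Q + 1), ∑ x' : Fin (Q + 1), h M x x' * g M x x'

/-- Contraction of impurity and first particle with the column `Z` of channel `r`. -/
noncomputable def contr3 (r : ℕ) (h : ℕ → Fin (Q + 1) → Fin (Q + 1) → ℝ) (Z x' : ℕ) : ℝ :=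
  ∑ M ∈ range (impChg Q + 1), ∑ u ∈ range (Q + 1), Jc r (impChg Q) Q M u Z * ext3 h M u x'

lemma ext3_deg {h : ℕ → Fin (Q + 1) → Fin (Q + 1) → ℝ} (hh : IsHW3 Q m h) {M x y : ℕ}
    (hne : M + x + y ≠ m) : ext3 h M x y = 0 := by
  unfold ext3
  split_ifs
  · exact hh.deg _ _ _ hne
  · rfl
  · rfl

lemma contr3_deg {h : ℕ → Fin (Q + 1) → Fin (Q + 1) → ℝ} (hh : IsHW3 Q m h) {r Z x' : ℕ}
    (hne : Z + x' + r ≠ m) : contr3 r h Z x' = 0 := by
  refine Finset.sum_eq_zero fun M _ => Finset.sum_eq_zero fun u _ => ?_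
  by_cases h1 : M + u = r + Z
  · rw [ext3_deg hh (by omega), mul_zero]
  · rw [jc_eq_zero h1, zero_mul]

lemma contr3_out {h : ℕ → Fin (Q + 1) → Fin (Q + 1) → ℝ} {r Z x' : ℕ} (hx : Q < x') :
    contr3 r h Z x' = 0 :=
  Finset.sum_eq_zero fun M _ => Finset.sum_eq_zero fun u _ => by
    simp [ext3, show ¬ x' < Q + 1 by omega]

/-- The contraction is killed by lowering. -/
lemma contr3_low {h : ℕ → Fin (Q + 1) → Fin (Q + 1) → ℝ} (hh : IsHW3 Q m h) {r : ℕ}
    (hr : r ≤ impChg Q) (hr' : r ≤ Q) (Z : ℕ) {x' : ℕ} (hx : x' < Q + 1) :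
    lower (impChg Q + Q - 2 * r) Z * contr3 r h (Z + 1) x' +
      lower Q x' * contr3 r h Z (x' + 1) = 0 := by
  have e : lower (impChg Q + Q - 2 * r) Z * contr3 r h (Z + 1) x' =
      ∑ M ∈ range (impChg Q + 1), ∑ u ∈ range (Q + 1),
        (lower (impChg Q) M * ext3 h (M + 1) u x' + lower Q u * ext3 h M (u + 1) x') *
          Jc r (impChg Q) Q M u Z := by
    rw [← pair_adjoint (impChg Q) Q (fun M u => ext3 h M u x')
      (fun M u => Jc r (impChg Q) Q M u Z), contr3, Finset.mul_sum]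
    simp only [jc_raise hr hr', Finset.mul_sum]
    exact Finset.sum_congr rfl fun M _ => Finset.sum_congr rfl fun u _ => by ring
  rw [e, contr3, Finset.mul_sum, ← Finset.sum_add_distrib]
  refine Finset.sum_eq_zero fun M hM => ?_
  rw [Finset.mul_sum, ← Finset.sum_add_distrib]
  refine Finset.sum_eq_zero fun u hu => ?_
  linear_combination Jc r (impChg Q) Q M u Z *
    ext3_hw hh (Nat.lt_succ_iff.1 (Finset.mem_range.1 hM)) (Finset.mem_range.1 hu) hx

/-- A highest weight vector of two factors is zero if its first row is. -/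
lemma eq_zero_of_row {a : ℕ} {F : ℕ → ℕ → ℝ}
    (hlow : ∀ Z x, x < Q + 1 → lower a Z * F (Z + 1) x + lower Q x * F Z (x + 1) = 0)
    (hout : ∀ Z x, Q < x → F Z x = 0) (h0 : ∀ x, F 0 x = 0) : ∀ Z, Z ≤ a → ∀ x, F Z x = 0 := by
  intro Z
  induction Z with
  | zero => exact fun _ => h0
  | succ Z ih =>
    intro hZ x
    by_cases hx : x < Q + 1
    · have h := hlow Z x hx
      rw [ih (by omega) (x + 1), mul_zero, add_zero] at h
      exact (mul_eq_zero.1 h).resolve_left (lower_pos (by omega)).ne'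
    · exact hout _ _ (by omega)

lemma sum_range_eq_ov (r q : ℕ) (h : ℕ → Fin (Q + 1) → Fin (Q + 1) → ℝ) {n : ℕ} (hn : q ≤ n) :
    ov (gvec (impChg Q) Q r q) h = ∑ Z ∈ range (n + 1), ∑ x' ∈ range (Q + 1),
      Jc q (impChg Q + Q - 2 * r) Q Z x' 0 * contr3 r h Z x' := by
  calc ov (gvec (impChg Q) Q r q) h
      = ∑ M ∈ range (impChg Q + 1), ∑ u ∈ range (Q + 1), ∑ x' ∈ range (Q + 1),
          ext3 h M u x' * gvec (impChg Q) Q r q M u x' := by
        simp only [ov, Finset.sum_range (n := Q + 1), ext3_eq]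
    _ = ∑ M ∈ range (impChg Q + 1), ∑ u ∈ range (Q + 1), ∑ Z ∈ range (n + 1),
          ∑ x' ∈ range (Q + 1), Jc q (impChg Q + Q - 2 * r) Q Z x' 0 *
            (Jc r (impChg Q) Q M u Z * ext3 h M u x') := by
        refine Finset.sum_congr rfl fun M _ => Finset.sum_congr rfl fun u _ => ?_
        rw [Finset.sum_comm]
        refine Finset.sum_congr rfl fun x' _ => ?_
        rw [gvec_sum _ _ _ _ _ _ _ n hn, Finset.mul_sum]
        exact Finset.sum_congr rfl fun Z _ => by ring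
    _ = _ := by
        simp only [contr3, Finset.mul_sum]
        rw [Finset.sum_comm_cycle]
        refine Finset.sum_congr rfl fun Z _ => ?_
        rw [Finset.sum_comm_cycle]

lemma chg_ge {r : ℕ} (hQ : 2 ≤ Q) (hr : 2 * r ≤ Q) : Q ≤ impChg Q + Q - 2 * r := by
  unfold impChg; omega

/-- The contraction is a multiple of the bottom column. -/
lemma contr3_eq (hQ : 2 ≤ Q) {h : ℕ → Fin (Q + 1) → Fin (Q + 1) → ℝ} (hh : IsHW3 Q m h) {r : ℕ}
    (hr : 2 * r ≤ Q) {Z : ℕ} (hZ : Z ≤ impChg Q + Q - 2 * r) (x' : ℕ) :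
    contr3 r h Z x' = if r ≤ m ∧ m - r ≤ Q then
      ov (gvec (impChg Q) Q r (m - r)) h / kappa (m - r) (impChg Q + Q - 2 * r) Q *
        Jc (m - r) (impChg Q + Q - 2 * r) Q Z x' 0 else 0 := by
  have hr1 : r ≤ impChg Q := by unfold impChg; omega
  have hr2 : r ≤ Q := by omega
  have hlow := fun Z x (hx : x < Q + 1) => contr3_low hh hr1 hr2 Z hx
  have hge := chg_ge hQ hr
  set q := m - r with hq
  set C := impChg Q + Q - 2 * r with hC
  by_cases hv : r ≤ m ∧ q ≤ Q
  swap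
  · rw [if_neg hv]
    refine eq_zero_of_row hlow (fun Z x hx => contr3_out hx) (fun x => ?_) Z hZ x'
    by_cases hx : 0 + x + r = m
    · exact contr3_out (by omega)
    · exact contr3_deg hh hx
  obtain ⟨hrm, hqQ⟩ := hv
  rw [if_pos ⟨hrm, hqQ⟩]
  have hqC : q ≤ C := by omega
  have hw0 : Jc q C Q 0 q 0 ≠ 0 := by
    have h0 := Jc_zero q C Q 0 (Nat.zero_le _)
    rw [Nat.sub_zero] at h0
    rw [h0]
    have h1 : (0 : ℝ) < (C.choose 0 : ℕ) := by simp
    have h2 : (0 : ℝ) < (Q.choose q : ℕ) := by exact_mod_cast Nat.choose_pos hqQ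
    refine div_ne_zero ?_ (mul_ne_zero (Real.sqrt_pos.2 h1).ne' (Real.sqrt_pos.2 h2).ne')
    simp
  set l := contr3 r h 0 q / Jc q C Q 0 q 0 with hl
  have hp : ∀ Z, Z ≤ C → ∀ x, contr3 r h Z x = l * Jc q C Q Z x 0 := by
    intro Z hZ x
    refine sub_eq_zero.1 (eq_zero_of_row (Q := Q) (F := fun Z x => contr3 r h Z x - l * Jc q C Q Z x 0)
      (fun Z x hx => ?_) (fun Z x hx => ?_) (fun x => ?_) Z hZ x)
    · linear_combination hlow Z x hx - l * jc_lower_zero hqC hqQ Z x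
    · rw [contr3_out hx, jc_eq_zero_right hx, mul_zero, sub_self]
    · by_cases hx : x = q
      · subst hx
        rw [hl, div_mul_cancel₀ _ hw0, sub_self]
      · rw [contr3_deg hh (show 0 + x + r ≠ m by omega), jc_eq_zero (show 0 + x ≠ q + 0 by omega)]
        simp
  have hov : ov (gvec (impChg Q) Q r q) h = l * kappa q C Q := by
    rw [sum_range_eq_ov r q h hqC, ← hC, ← jc_norm_zero hqC hqQ, Finset.mul_sum]
    refine Finset.sum_congr rfl fun Z hZ => ?_
    rw [Finset.mul_sum]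
    exact Finset.sum_congr rfl fun x _ => by
      rw [hp Z (Nat.lt_succ_iff.1 (Finset.mem_range.1 hZ)) x]; ring
  rw [hp Z hZ x', hov, mul_div_assoc, div_self (kappa_pos hqC hqQ).ne', mul_one]

/-- The coefficient of `gvec` in the image of a square. -/
noncomputable def coefOv (t : Sq) (Q m r : ℕ) (h : ℕ → Fin (Q + 1) → Fin (Q + 1) → ℝ) : ℝ :=
  if r ≤ m ∧ m - r ≤ Q then
    t.β r * Real.sqrt ((Q : ℝ) ^ t.n) * ov (gvec (impChg Q) Q r (m - r)) h /
      gInner (impChg Q) Q r (m - r) r (m - r)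
  else 0

/-- The image of a square on a highest weight vector. -/
lemma apply3_eq (hQ : 2 ≤ Q) {t : Sq} (ht : Lift.Adm Q t)
    {h : ℕ → Fin (Q + 1) → Fin (Q + 1) → ℝ} (hh : IsHW3 Q m h) (y : ℕ) (x x' : Fin (Q + 1)) :
    t.apply3 h y x x' = ∑ r ∈ t.S,
      coefOv t Q m r h * gvec (t.outChg Q) Q (t.outCh r) (m - r) y x x' := by
  refine Finset.sum_congr rfl fun r hr => ?_
  obtain ⟨-, -, h3, h4, h5, h6⟩ := Lift.adm_out ht hr
  have hr2 : 2 * r ≤ Q := (ht.2 r hr).2.1
  have hC : impChg Q + Q - 2 * r = chg Q r := by omega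
  have hC' : t.outChg Q + Q - 2 * t.outCh r = chg Q r := by omega
  have e : ∀ Z, ∑ M ∈ range (impChg Q + 1), ∑ u : Fin (Q + 1), Jc r (impChg Q) Q M u Z * h M u x' =
      contr3 r h Z x' := fun Z => by simp only [contr3, Finset.sum_range (n := Q + 1), ext3_eq]
  simp only [e]
  rw [coefOv]
  split_ifs with hv
  · have hq1 : m - r ≤ chg Q r := by have := chg_ge hQ hr2; omega
    have hK : gInner (impChg Q) Q r (m - r) r (m - r) =
        kappa r (impChg Q) Q * kappa (m - r) (chg Q r) Q := by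
      rw [← hC]; exact gInner_self h3 h4 (by omega) hv.2
    rw [gvec_sum _ _ _ _ _ _ _ (chg Q r) hq1, hC', hK, Finset.mul_sum, Finset.mul_sum]
    refine Finset.sum_congr rfl fun Z hZ => ?_
    rw [contr3_eq hQ hh hr2 (by have := Finset.mem_range.1 hZ; omega), if_pos hv, hC, Sq.coef]
    field_simp
  · rw [zero_mul, Finset.sum_eq_zero fun Z hZ => ?_, mul_zero]
    rw [contr3_eq hQ hh hr2 (by have := Finset.mem_range.1 hZ; omega), if_neg hv, mul_zero]

lemma apply3_neg (t : Sq) (f : ℕ → Fin (Q + 1) → Fin (Q + 1) → ℝ) (y : ℕ) (x x' : Fin (Q + 1)) :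
    t.apply3 (fun M u v => -f M u v) y x x' = -t.apply3 f y x x' := by
  simp only [Sq.apply3, mul_neg, Finset.sum_neg_distrib]

/-- One term of the cross term of a square, guarded to valid degrees. -/
noncomputable def crossTerm (t : Sq) (Q m r r' : ℕ) (v : ℕ → ℝ) : ℝ :=
  if r ≤ m ∧ r' ≤ m ∧ m - r ≤ Q ∧ m - r' ≤ Q then
    t.β r * t.β r' * (Q : ℝ) ^ t.n * v r * v r' /
        (gInner (impChg Q) Q r (m - r) r (m - r) * gInner (impChg Q) Q r' (m - r') r' (m - r')) *
      gExch (t.outChg Q) Q (t.outCh r) (m - r) (t.outCh r') (m - r')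
  else 0

/-- The cross term of a square on a highest weight vector. -/
lemma cross3_eq (hQ : 2 ≤ Q) {t : Sq} (ht : Lift.Adm Q t)
    {h : ℕ → Fin (Q + 1) → Fin (Q + 1) → ℝ} (hh : IsHW3 Q m h) :
    t.cross3 h = -∑ r ∈ t.S, ∑ r' ∈ t.S,
      crossTerm t Q m r r' (fun k => ov (gvec (impChg Q) Q k (m - k)) h) := by
  have hswap : (fun M (u v : Fin (Q + 1)) => h M v u) = fun M u v => -h M u v := by
    funext M u v; exact hh.anti M u v
  rw [Sq.cross3]
  simp only [hswap, apply3_neg, mul_neg, apply3_eq hQ ht hh, Finset.sum_mul_sum,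
    Finset.sum_neg_distrib, neg_inj]
  rw [Finset.sum_congr rfl fun y _ => Finset.sum_comm_cycle, Finset.sum_comm]
  refine Finset.sum_congr rfl fun r _ => ?_
  rw [Finset.sum_congr rfl fun y _ => Finset.sum_comm_cycle, Finset.sum_comm]
  refine Finset.sum_congr rfl fun r' _ => ?_
  rw [crossTerm, coefOv, coefOv]
  by_cases h1 : r ≤ m ∧ m - r ≤ Q
  · by_cases h2 : r' ≤ m ∧ m - r' ≤ Q
    · rw [if_pos h1, if_pos h2,
        if_pos (show r ≤ m ∧ r' ≤ m ∧ m - r ≤ Q ∧ m - r' ≤ Q from ⟨h1.1, h2.1, h1.2, h2.2⟩), gExch]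
      simp only [Finset.sum_range (n := Q + 1), Finset.mul_sum]
      refine Finset.sum_congr rfl fun y _ => Finset.sum_congr rfl fun x _ =>
        Finset.sum_congr rfl fun x' _ => ?_
      have hs := Real.mul_self_sqrt (zpow_nonneg (Nat.cast_nonneg Q : (0 : ℝ) ≤ Q) t.n)
      linear_combination (t.β r * t.β r' * ov (gvec (impChg Q) Q r (m - r)) h *
        ov (gvec (impChg Q) Q r' (m - r')) h /
        (gInner (impChg Q) Q r (m - r) r (m - r) * gInner (impChg Q) Q r' (m - r') r' (m - r')) *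
        (gvec (t.outChg Q) Q (t.outCh r) (m - r) y x x' *
          gvec (t.outChg Q) Q (t.outCh r') (m - r') y x' x)) * hs
    · rw [if_pos h1, if_neg h2,
        if_neg (show ¬ (r ≤ m ∧ r' ≤ m ∧ m - r ≤ Q ∧ m - r' ≤ Q) from
          fun hc => h2 ⟨hc.2.1, hc.2.2.2⟩)]
      simp
  · rw [if_neg h1,
      if_neg (show ¬ (r ≤ m ∧ r' ≤ m ∧ m - r ≤ Q ∧ m - r' ≤ Q) from fun hc => h1 ⟨hc.1, hc.2.2.1⟩)]
    simp

lemma ov_eq_wvec (h : ℕ → Fin (Q + 1) → Fin (Q + 1) → ℝ) :
    (∑ M ∈ range (impChg Q + 1), ∑ a : Fin (Q + 1), ∑ b : Fin (Q + 1),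
      h M a b * wvec Q m M a b) = ov (wvec Q m) h := rfl

/-- `q3` on a highest weight vector. -/
lemma q3_eq (hQ : 2 ≤ Q) {sq : List Sq} (hsq : ∀ t ∈ sq, Lift.Adm Q t)
    {h : ℕ → Fin (Q + 1) → Fin (Q + 1) → ℝ} (hh : IsHW3 Q m h) :
    q3 sq h = ov (wvec Q m) h ^ 2 / wNorm Q m +
      2 * (sq.map fun t => ∑ r ∈ t.S, ∑ r' ∈ t.S,
        crossTerm t Q m r r' (fun k => ov (gvec (impChg Q) Q k (m - k)) h)).sum := by
  rw [q3, pairBlock_eq (by omega) hh, ov_eq_wvec, sub_eq_add_neg]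
  congr 1
  induction sq with
  | nil => simp
  | cons t l ih =>
      have h1 := ih fun u hu => hsq u (List.mem_cons_of_mem _ hu)
      rw [List.map_cons, List.sum_cons, List.map_cons, List.sum_cons,
        cross3_eq hQ (hsq t (List.mem_cons_self ..)) hh]
      linarith

end Vale.Agent.P359.Gap.Criterion
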