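import Vale.Agent.P359.Gap.Criterion.Channel
import Mathlib.Analysis.InnerProductSpace.Projection.Basic

/-!
# P359, gap M6: the antisymmetrised vectors of one relative degree

`uvec` are the vectors whose Gram matrix is `gam`. A highest weight vector is determined by its
entries with impurity index `0`, so the antisymmetric ones of degree `m` fill at most `(m + 1) / 2`
dimensions. Bessel's inequality relates the overlaps with a highest weight vector to its norm.
-/

open Finset

namespace Vale.Agent.P359.Gap.Criterion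

open PairBlock (ext3 ext3_eq ext3_hw)

variable {Q m : ℕ}

/-- The antisymmetrised vectors. -/
noncomputable def uvec (Q m : ℕ) : Option ℕ → ℕ → ℕ → ℕ → ℝ
  | some r, M, x, y =>
      (gvec (impChg Q) Q r (m - r) M x y - gvec (impChg Q) Q r (m - r) M y x) / 2
  | none, M, x, y => wvec Q m M x y

lemma wvec_swap (hQ : 1 ≤ Q) (M : ℕ) (x y : Fin (Q + 1)) :
    wvec Q m M y x = -wvec Q m M x y := by
  simp only [wvec, ← Finset.sum_neg_distrib]
  refine Finset.sum_congr rfl fun Y _ => ?_
  rw [Red.jc_one_swap hQ]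
  ring

lemma uvec_swap (hQ : 1 ≤ Q) (a : Option ℕ) (M : ℕ) (x y : Fin (Q + 1)) :
    uvec Q m a M y x = -uvec Q m a M x y := by
  cases a with
  | none => exact wvec_swap hQ M x y
  | some r => simp only [uvec]; ring

/-- A vector on natural indices as a three-factor vector. -/
def toFin (g : ℕ → ℕ → ℕ → ℝ) : ℕ → Fin (Q + 1) → Fin (Q + 1) → ℝ := fun M x y => g M x y

lemma ov_symm (f g : ℕ → ℕ → ℕ → ℝ) :
    ov (Q := Q) f (toFin g) = ov (Q := Q) g (toFin f) := by
  simp only [ov, toFin, mul_comm]

lemma ov_uvec {h : ℕ → Fin (Q + 1) → Fin (Q + 1) → ℝ} (hh : ∀ M x y, h M y x = -h M x y) (r : ℕ) :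
    ov (uvec Q m (some r)) h = ov (gvec (impChg Q) Q r (m - r)) h := by
  have hs : (∑ M ∈ range (impChg Q + 1), ∑ x : Fin (Q + 1), ∑ y : Fin (Q + 1),
      h M x y * gvec (impChg Q) Q r (m - r) M y x) = -ov (gvec (impChg Q) Q r (m - r)) h := by
    simp only [ov, ← Finset.sum_neg_distrib]
    refine Finset.sum_congr rfl fun M _ => ?_
    rw [Finset.sum_comm]
    exact Finset.sum_congr rfl fun x _ => Finset.sum_congr rfl fun y _ => by rw [hh]; ring
  calc ov (uvec Q m (some r)) h
      = (ov (gvec (impChg Q) Q r (m - r)) h - ∑ M ∈ range (impChg Q + 1), ∑ x : Fin (Q + 1),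
          ∑ y : Fin (Q + 1), h M x y * gvec (impChg Q) Q r (m - r) M y x) / 2 := by
        simp only [ov, uvec, ← Finset.sum_sub_distrib, Finset.sum_div]
        exact Finset.sum_congr rfl fun M _ => Finset.sum_congr rfl fun x _ =>
          Finset.sum_congr rfl fun y _ => by ring
    _ = _ := by rw [hs]; ring

/-- `gam` is the Gram matrix of `uvec`. -/
lemma gam_eq (hQ : 1 ≤ Q) (a b : Option ℕ) :
    gam Q m a b = ov (uvec Q m a) (toFin (Q := Q) (uvec Q m b)) := by
  cases a with
  | none =>
    cases b with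
    | none => simp only [gam, wNorm, ov, toFin, uvec, Finset.sum_range (n := Q + 1), sq]
    | some r =>
      rw [ov_symm, ov_uvec (h := toFin (uvec Q m none)) (fun M x y => uvec_swap hQ none M x y)]
      simp only [gam, gPair, ov, toFin, uvec, Finset.sum_range (n := Q + 1), mul_comm]
  | some r =>
    cases b with
    | none =>
      rw [ov_uvec (h := toFin (uvec Q m none)) (fun M x y => uvec_swap hQ none M x y)]
      simp only [gam, gPair, ov, toFin, uvec, Finset.sum_range (n := Q + 1), mul_comm]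
    | some r' =>
      rw [ov_uvec (h := toFin (uvec Q m (some r'))) (fun M x y => uvec_swap hQ (some r') M x y)]
      simp only [gam, gInner, gExch, ov, toFin, uvec, Finset.sum_range (n := Q + 1),
        ← Finset.sum_sub_distrib, Finset.sum_div]
      exact Finset.sum_congr rfl fun M _ => Finset.sum_congr rfl fun x _ =>
        Finset.sum_congr rfl fun y _ => by ring

/-- Index of the entries of a three-factor vector. -/
abbrev Idx (Q : ℕ) := Fin (impChg Q + 1) × Fin (Q + 1) × Fin (Q + 1)

/-- A three-factor vector in Euclidean space. -/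
noncomputable def vE (h : ℕ → Fin (Q + 1) → Fin (Q + 1) → ℝ) : EuclideanSpace ℝ (Idx Q) :=
  WithLp.toLp 2 fun p => h p.1 p.2.1 p.2.2

lemma inner_vE (f h : ℕ → Fin (Q + 1) → Fin (Q + 1) → ℝ) :
    @inner ℝ _ _ (vE f) (vE h) =
      ∑ M ∈ range (impChg Q + 1), ∑ x : Fin (Q + 1), ∑ y : Fin (Q + 1), h M x y * f M x y := by
  rw [vE, vE, EuclideanSpace.inner_toLp_toLp]
  simp [dotProduct, Fintype.sum_prod_type, Finset.sum_range (n := impChg Q + 1)]

/-- Overlaps are those of a combination with no larger norm. -/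
lemma exists_proj (hQ : 1 ≤ Q) (J : Finset (Option ℕ))
    (h : ℕ → Fin (Q + 1) → Fin (Q + 1) → ℝ) :
    ∃ c : Option ℕ → ℝ, (∀ a ∈ J, ∑ b ∈ J, gam Q m a b * c b = ov (uvec Q m a) h) ∧
      ∑ a ∈ J, ∑ b ∈ J, c a * c b * gam Q m a b ≤ normSq3 h := by
  classical
  set U : J → EuclideanSpace ℝ (Idx Q) := fun a => vE (toFin (uvec Q m a)) with hU
  set K := Submodule.span ℝ (Set.range U) with hK
  obtain ⟨d, hd⟩ := Submodule.mem_span_range_iff_exists_fun (R := ℝ) |>.1
    (Submodule.starProjection_apply_mem K (vE h))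
  set c : Option ℕ → ℝ := fun a => if ha : a ∈ J then d ⟨a, ha⟩ else 0 with hc
  have hcd : ∀ a : J, c a = d a := fun a => by simp [hc, a.2]
  set p := K.starProjection (vE h) with hp
  have hg : ∀ a b : Option ℕ, gam Q m a b =
      @inner ℝ _ _ (vE (toFin (uvec Q m a))) (vE (toFin (Q := Q) (uvec Q m b))) := fun a b => by
    rw [gam_eq hQ, inner_vE]; rfl
  have hov : ∀ a : Option ℕ, ov (uvec Q m a) h = @inner ℝ _ _ (vE (toFin (uvec Q m a))) (vE h) :=
    fun a => by rw [inner_vE]; rfl
  have hip : ∀ a : Option ℕ, ∑ b ∈ J, gam Q m a b * c b =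
      @inner ℝ _ _ (vE (toFin (uvec Q m a))) p := by
    intro a
    rw [← hd, inner_sum, ← Finset.sum_coe_sort]
    refine Finset.sum_congr rfl fun b _ => ?_
    rw [real_inner_smul_right, hg, hcd]
    ring
  have horth : ∀ w ∈ K, @inner ℝ _ _ w (vE h - p) = 0 := fun w hw => by
    rw [real_inner_comm]
    exact Submodule.starProjection_inner_eq_zero (vE h) w hw
  refine ⟨c, fun a ha => ?_, ?_⟩
  · rw [hip a, hov]
    have h0 := horth (U ⟨a, ha⟩) (Submodule.subset_span ⟨_, rfl⟩)
    rw [inner_sub_right, sub_eq_zero] at h0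
    exact h0.symm
  · have e : ∑ a ∈ J, ∑ b ∈ J, c a * c b * gam Q m a b = @inner ℝ _ _ p p := by
      calc ∑ a ∈ J, ∑ b ∈ J, c a * c b * gam Q m a b
          = ∑ a ∈ J, c a * @inner ℝ _ _ (vE (toFin (uvec Q m a))) p := by
            refine Finset.sum_congr rfl fun a _ => ?_
            rw [← hip a, Finset.mul_sum]
            exact Finset.sum_congr rfl fun b _ => by ring
        _ = _ := by
            conv_rhs => arg 2; rw [← hd]
            rw [sum_inner, ← Finset.sum_coe_sort]
            exact Finset.sum_congr rfl fun a _ => by rw [real_inner_smul_left, hcd]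
    have h0 := horth p (Submodule.starProjection_apply_mem K (vE h))
    rw [inner_sub_right, sub_eq_zero] at h0
    have h1 := real_inner_self_nonneg (x := vE h - p)
    rw [real_inner_sub_sub_self, real_inner_comm p (vE h), h0] at h1
    have hn : normSq3 h = @inner ℝ _ _ (vE h) (vE h) := by
      rw [inner_vE]; simp only [normSq3, sq]
    rw [e, hn]
    linarith

/-- `wvec` is killed by lowering. -/
lemma wvec_lower (hQ : 1 ≤ Q) (hm : 1 ≤ m) (hm' : m - 1 ≤ impChg Q) (M x y : ℕ) :
    lower (impChg Q) M * wvec Q m (M + 1) x y + lower Q x * wvec Q m M (x + 1) y +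
      lower Q y * wvec Q m M x (y + 1) = 0 := by
  set c := impChg Q with hc
  have hext : ∀ M x y, wvec Q m M x y =
      ∑ Y ∈ range (m + 2), Jc (m - 1) c c M Y 0 * Jc 1 Q Q x y Y := fun M x y => by
    rw [wvec, Finset.sum_range_succ _ (m + 1),
      jc_eq_zero (show M + (m + 1) ≠ m - 1 + 0 by omega), zero_mul, add_zero]
  rw [show wvec Q m (M + 1) x y =
      ∑ Y ∈ range (m + 1), Jc (m - 1) c c (M + 1) Y 0 * Jc 1 Q Q x y Y from rfl,
    hext M (x + 1) y, hext M x (y + 1), Finset.mul_sum, Finset.mul_sum, Finset.mul_sum,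
    add_assoc, ← Finset.sum_add_distrib, Finset.sum_range_succ' _ (m + 1)]
  have h0 : lower Q x * (Jc (m - 1) c c M 0 0 * Jc 1 Q Q (x + 1) y 0) +
      lower Q y * (Jc (m - 1) c c M 0 0 * Jc 1 Q Q x (y + 1) 0) = 0 := by
    linear_combination (Jc (m - 1) c c M 0 0) * jc_lower_zero (a := Q) (b := Q) hQ hQ x y
  rw [h0, add_zero, ← Finset.sum_add_distrib]
  refine Finset.sum_eq_zero fun Y _ => ?_
  have h1 := jc_lower (a := Q) (b := Q) hQ hQ x y Y
  rw [Red.impChg_eq] at h1
  linear_combination Jc (m - 1) c c M (Y + 1) 0 * h1 +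
    Jc 1 Q Q x y Y * jc_lower_zero (a := c) (b := c) hm' hm' M Y

/-- The highest weight condition on natural indices. -/
lemma isHW3_toFin {g : ℕ → ℕ → ℕ → ℝ} (hanti : ∀ M (x y : Fin (Q + 1)), g M y x = -g M x y)
    (hdeg : ∀ M x y, M + x + y ≠ m → g M x y = 0) (hsupp : ∀ M x y, impChg Q < M → g M x y = 0)
    (hlow : ∀ M x y, M ≤ impChg Q → x ≤ Q → y ≤ Q → lower (impChg Q) M * g (M + 1) x y +
      lower Q x * g M (x + 1) y + lower Q y * g M x (y + 1) = 0) :
    IsHW3 Q m (toFin g) := by
  refine ⟨hanti, fun M x y h => hdeg M x y h, fun M x y h => hsupp M x y h, fun M x y hM => ?_⟩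
  have hx := x.isLt
  have hy := y.isLt
  have h := hlow M x y hM (by omega) (by omega)
  simp only [toFin]
  by_cases hx' : (x : ℕ) + 1 < Q + 1 <;> by_cases hy' : (y : ℕ) + 1 < Q + 1 <;>
    simp only [dif_pos, dif_neg, hx', hy', not_false_eq_true] <;>
    (try rw [lower_big (show Q ≤ (x : ℕ) by omega)] at h) <;>
    (try rw [lower_big (show Q ≤ (y : ℕ) by omega)] at h) <;> linarith

/-- The antisymmetrised vectors are highest weight vectors. -/
lemma uvec_hw (hQ : 3 ≤ Q) (hm : m ≤ Q) (a : Option ℕ) (ha : ∀ r, a = some r → r ≤ m)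
    (hm1 : 1 ≤ m) : IsHW3 Q m (toFin (uvec Q m a)) := by
  have himp : m ≤ impChg Q := by unfold impChg; omega
  cases a with
  | none =>
    refine isHW3_toFin (fun M x y => wvec_swap (by omega) M x y) (fun M x y h => ?_)
      (fun M x y h => ?_) (fun M x y _ _ _ => wvec_lower (by omega) hm1 (by omega) M x y)
    · simp only [uvec, wvec]
      refine Finset.sum_eq_zero fun Y _ => ?_
      by_cases h1 : M + Y = m - 1 + 0
      · rw [jc_eq_zero (show x + y ≠ 1 + Y by omega), mul_zero]
      · rw [jc_eq_zero h1, zero_mul]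
    · simp only [uvec, wvec]
      exact Finset.sum_eq_zero fun Y _ => by rw [jc_eq_zero_left h, zero_mul]
  | some r =>
    have hr := ha r rfl
    refine isHW3_toFin (fun M x y => uvec_swap (by omega) (some r) M x y) (fun M x y h => ?_)
      (fun M x y h => ?_) (fun M x y _ _ _ => ?_)
    · simp only [uvec]
      rw [gvec_eq_zero (Or.inr (Or.inr (Or.inr (by omega)))),
        gvec_eq_zero (Or.inr (Or.inr (Or.inr (by omega))))]
      simp
    · simp only [uvec]
      rw [gvec_eq_zero (Or.inl h), gvec_eq_zero (Or.inl h)]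
      simp
    · have hq : m - r ≤ impChg Q + Q - 2 * r := by unfold impChg; omega
      have h1 := gvec_lower (cY := impChg Q) (Q := Q) (r := r) (q := m - r) (by omega) (by omega)
        hq (by omega) M x y
      have h2 := gvec_lower (cY := impChg Q) (Q := Q) (r := r) (q := m - r) (by omega) (by omega)
        hq (by omega) M y x
      simp only [uvec]
      linear_combination h1 / 2 - h2 / 2

/-- A highest weight vector with vanishing entries at impurity index `0`, `x < y`, is zero. -/
lemma hw_eq_zero {h : ℕ → Fin (Q + 1) → Fin (Q + 1) → ℝ} (hh : IsHW3 Q m h)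
    (h0 : ∀ i, i < (m + 1) / 2 → ext3 h 0 i (m - i) = 0) : ∀ M x y, h M x y = 0 := by
  suffices H : ∀ M, M ≤ impChg Q → ∀ x y, ext3 h M x y = 0 by
    intro M x y
    by_cases hM : M ≤ impChg Q
    · rw [← ext3_eq h M x y]; exact H M hM x y
    · exact hh.supp M x y (by omega)
  have hanti : ∀ M x y, ext3 h M y x = -ext3 h M x y := by
    intro M x y
    unfold ext3
    split_ifs <;> first | exact hh.anti _ _ _ | simp
  intro M
  induction M with
  | zero =>
    intro _ x y
    by_cases hd : 0 + x + y = m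
    · rcases lt_trichotomy x y with hlt | heq | hgt
      · have h1 := h0 x (by omega)
        rwa [show m - x = y by omega] at h1
      · subst heq
        have h1 := hanti 0 x x
        linarith
      · have h1 := h0 y (by omega)
        rw [show m - y = x by omega] at h1
        rw [hanti, h1, neg_zero]
    · exact ext3_deg hh hd
  | succ M ih =>
    intro hM x y
    by_cases hxy : x < Q + 1 ∧ y < Q + 1
    · have h1 := ext3_hw hh (M := M) (by omega) hxy.1 hxy.2
      rw [ih (by omega), ih (by omega), mul_zero, mul_zero, add_zero, add_zero] at h1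
      exact (mul_eq_zero.1 h1).resolve_left (lower_pos (by omega)).ne'
    · unfold ext3
      split_ifs with h1 h2
      · exact absurd ⟨h1, h2⟩ hxy
      · rfl
      · rfl

/-- Positive definiteness and the dimension count make the vectors span. -/
lemma exists_span (hQ : 3 ≤ Q) (hm : m ≤ Q) (J : Finset (Option ℕ))
    (hJ : ∀ r, some r ∈ J → r ≤ m) (hcard : J.card = (m + 1) / 2)
    (hpos : ∀ c : Option ℕ → ℝ, (∃ a ∈ J, c a ≠ 0) →
      0 < ∑ a ∈ J, ∑ b ∈ J, c a * c b * gam Q m a b)
    {h : ℕ → Fin (Q + 1) → Fin (Q + 1) → ℝ} (hh : IsHW3 Q m h) :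
    ∃ c : Option ℕ → ℝ, (∀ a, ∑ b ∈ J, gam Q m a b * c b = ov (uvec Q m a) h) ∧
      ∑ a ∈ J, ∑ b ∈ J, c a * c b * gam Q m a b = normSq3 h := by
  classical
  set k := (m + 1) / 2 with hk
  set C : (J → ℝ) → ℕ → Fin (Q + 1) → Fin (Q + 1) → ℝ :=
    fun d M x y => ∑ a : J, d a * uvec Q m a M x y with hC
  have hCh : ∀ d, IsHW3 Q m (C d) := by
    intro d
    rcases J.eq_empty_or_nonempty with hJ0 | hJ0
    · have hz : C d = fun _ _ _ => 0 := by
        funext M x y
        exact Finset.sum_eq_zero fun a _ => absurd a.2 (by simp [hJ0])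
      rw [hz]
      exact ⟨by simp, by simp, by simp, by simp⟩
    have hm1 : 1 ≤ m := by have := Finset.card_pos.2 hJ0; omega
    have hu := fun a : J => uvec_hw (Q := Q) hQ hm (a : Option ℕ)
      (fun r hr => hJ r (hr ▸ a.2)) hm1
    refine ⟨fun M x y => ?_, fun M x y hne => ?_, fun M x y hM => ?_, fun M x y hM => ?_⟩
    · simp only [hC, ← Finset.sum_neg_distrib, ← mul_neg]
      exact Finset.sum_congr rfl fun a _ => congrArg _ ((hu a).anti M x y)
    · exact Finset.sum_eq_zero fun a _ => mul_eq_zero_of_right _ ((hu a).deg M x y hne)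
    · exact Finset.sum_eq_zero fun a _ => mul_eq_zero_of_right _ ((hu a).supp M x y hM)
    · simp only [hC, Finset.mul_sum]
      by_cases hx : (x : ℕ) + 1 < Q + 1 <;> by_cases hy : (y : ℕ) + 1 < Q + 1 <;>
        simp only [dif_pos, dif_neg, hx, hy, not_false_eq_true, add_zero,
          ← Finset.sum_add_distrib] <;>
        refine Finset.sum_eq_zero fun a _ => ?_ <;>
        have h1 := (hu a).hw M x y hM <;>
        simp only [dif_pos, dif_neg, hx, hy, not_false_eq_true, add_zero, toFin] at h1 <;>
        linear_combination d a * h1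
  have hquad : ∀ d : J → ℝ, ∀ c : Option ℕ → ℝ, (∀ a : J, c a = d a) →
      (∀ a, ∑ b ∈ J, gam Q m a b * c b = ov (uvec Q m a) (C d)) ∧
      ∑ a ∈ J, ∑ b ∈ J, c a * c b * gam Q m a b = normSq3 (C d) := by
    intro d c hcd
    have h1 : ∀ a, ∑ b ∈ J, gam Q m a b * c b = ov (uvec Q m a) (C d) := by
      intro a
      simp only [gam_eq (show 1 ≤ Q by omega), ov, toFin, hC, Finset.sum_mul]
      rw [← Finset.sum_coe_sort, Finset.sum_comm]
      refine Finset.sum_congr rfl fun M _ => ?_
      rw [Finset.sum_comm]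
      refine Finset.sum_congr rfl fun x _ => ?_
      rw [Finset.sum_comm]
      exact Finset.sum_congr rfl fun y _ => Finset.sum_congr rfl fun b _ => by rw [hcd]; ring
    refine ⟨h1, ?_⟩
    have h2 : normSq3 (C d) = ∑ a : J, d a * ov (uvec Q m a) (C d) := by
      simp only [normSq3, ov, sq, Finset.mul_sum]
      rw [Finset.sum_comm (s := (Finset.univ : Finset J))]
      refine Finset.sum_congr rfl fun M _ => ?_
      rw [Finset.sum_comm (s := (Finset.univ : Finset J))]
      refine Finset.sum_congr rfl fun x _ => ?_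
      rw [Finset.sum_comm (s := (Finset.univ : Finset J))]
      refine Finset.sum_congr rfl fun y _ => ?_
      simp only [hC, Finset.mul_sum]
      exact Finset.sum_congr rfl fun a _ => by ring
    rw [h2, ← Finset.sum_coe_sort]
    refine Finset.sum_congr rfl fun a _ => ?_
    rw [← h1, hcd, Finset.mul_sum]
    exact Finset.sum_congr rfl fun b _ => by ring
  let L : (J → ℝ) →ₗ[ℝ] (Fin k → ℝ) :=
    { toFun := fun d i => ∑ a : J, d a * ext3 (toFin (uvec Q m a) : ℕ → Fin (Q + 1) → _ → ℝ) 0 i
        (m - i)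
      map_add' := fun d d' => by funext i; simp [add_mul, Finset.sum_add_distrib]
      map_smul' := fun r d => by funext i; simp [Finset.mul_sum, mul_assoc] }
  have hLC : ∀ d i, L d i = ext3 (C d) 0 i (m - i) := by
    intro d i
    simp only [L, LinearMap.coe_mk, AddHom.coe_mk, hC, ext3]
    split_ifs <;> simp [toFin]
  have hinj : Function.Injective L := by
    refine (injective_iff_map_eq_zero L).2 fun d hd => ?_
    have hz := hw_eq_zero (hCh d) (fun i hi => by rw [← hLC d ⟨i, hi⟩, hd]; rfl)
    funext a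
    by_contra hne
    set c : Option ℕ → ℝ := fun b => if hb : b ∈ J then d ⟨b, hb⟩ else 0 with hc
    have hcd : ∀ b : J, c b = d b := fun b => by simp [hc, b.2]
    have h1 := hpos c ⟨a, a.2, by rw [hcd]; exact hne⟩
    rw [(hquad d c hcd).2] at h1
    simp [normSq3, hz] at h1
  have hsurj : Function.Surjective L :=
    (LinearMap.injective_iff_surjective_of_finrank_eq_finrank (by simp [hcard])).1 hinj
  obtain ⟨d, hd⟩ := hsurj fun i => ext3 h 0 i (m - i)
  have heq : C d = h := by
    have hdiff : IsHW3 Q m (fun M x y => C d M x y - h M x y) := by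
      refine ⟨fun M x y => ?_, fun M x y hne => ?_, fun M x y hM => ?_, fun M x y hM => ?_⟩
      · rw [(hCh d).anti, hh.anti]; ring
      · rw [(hCh d).deg M x y hne, hh.deg M x y hne, sub_zero]
      · rw [(hCh d).supp M x y hM, hh.supp M x y hM, sub_zero]
      · have h1 := (hCh d).hw M x y hM
        have h2 := hh.hw M x y hM
        by_cases hx : (x : ℕ) + 1 < Q + 1 <;> by_cases hy : (y : ℕ) + 1 < Q + 1 <;>
          simp only [dif_pos, dif_neg, hx, hy, not_false_eq_true] at h1 h2 ⊢ <;> linarith
    have hz := hw_eq_zero hdiff fun i hi => by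
      have h1 := congrFun hd ⟨i, hi⟩
      rw [hLC] at h1
      unfold ext3 at h1 ⊢
      split_ifs at h1 ⊢ with ha hb
      · exact sub_eq_zero.2 h1
      · rfl
      · rfl
    funext M x y
    exact sub_eq_zero.1 (hz M x y)
  set c : Option ℕ → ℝ := fun b => if hb : b ∈ J then d ⟨b, hb⟩ else 0 with hc
  exact ⟨c, heq ▸ hquad d c fun b => by simp [hc, b.2]⟩

end Vale.Agent.P359.Gap.Criterion
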